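import Vale.Agent.Lib.P074.Third.Defs
import Vale.Agent.Lib.P074.Explicit
import Vale.Agent.Lib.P074.LB.Stab

/-!
# P074: basic facts on power diagrams (cells, potential, power-diagram map)
-/

namespace Vale.Agent.Lib.P074

open MeasureTheory ENNReal

variable {d n : ℕ}

lemma pcell_subset (K : Set (E d)) (y : Fin (n + 1) → E d) (ψ : Fin (n + 1) → ℝ)
    (k : Fin (n + 1)) : pcell K y ψ k ⊆ K := fun _ hx => hx.1

lemma isClosed_pcell {K : Set (E d)} (hK : IsClosed K) (y : Fin (n + 1) → E d)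
    (ψ : Fin (n + 1) → ℝ) (k : Fin (n + 1)) : IsClosed (pcell K y ψ k) := by
  have : pcell K y ψ k = K ∩ ⋂ j, {x | inner ℝ x (y j) - ψ j ≤ inner ℝ x (y k) - ψ k} := by
    ext x; simp [pcell]
  rw [this]
  refine hK.inter (isClosed_iInter fun j => ?_)
  exact isClosed_le (by fun_prop) (by fun_prop)

lemma measurableSet_pcell {K : Set (E d)} (hK : IsClosed K) (y : Fin (n + 1) → E d)
    (ψ : Fin (n + 1) → ℝ) (k : Fin (n + 1)) : MeasurableSet (pcell K y ψ k) :=
  (isClosed_pcell hK y ψ k).measurableSet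

lemma mem_pactive_iff (y : Fin (n + 1) → E d) (ψ : Fin (n + 1) → ℝ) (x : E d) (k : Fin (n + 1)) :
    k ∈ pactive y ψ x ↔ ∀ j, inner ℝ x (y j) - ψ j ≤ inner ℝ x (y k) - ψ k := by
  classical
  simp [pactive]

lemma pidx_spec (y : Fin (n + 1) → E d) (ψ : Fin (n + 1) → ℝ) (x : E d) :
    ∀ j, inner ℝ x (y j) - ψ j ≤ inner ℝ x (y (pidx y ψ x)) - ψ (pidx y ψ x) :=
  (mem_pactive_iff y ψ x _).1 (Finset.min'_mem (pactive y ψ x) (pactive_nonempty y ψ x))

lemma mem_pcell_pidx {K : Set (E d)} {x : E d} (hx : x ∈ K) (y : Fin (n + 1) → E d)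
    (ψ : Fin (n + 1) → ℝ) : x ∈ pcell K y ψ (pidx y ψ x) := ⟨hx, pidx_spec y ψ x⟩

lemma iUnion_pcell (K : Set (E d)) (y : Fin (n + 1) → E d) (ψ : Fin (n + 1) → ℝ) :
    ⋃ k, pcell K y ψ k = K := by
  ext x
  constructor
  · intro hx
    obtain ⟨k, hk⟩ := Set.mem_iUnion.1 hx
    exact hk.1
  · intro hx
    exact Set.mem_iUnion.2 ⟨_, mem_pcell_pidx hx y ψ⟩

lemma pcell_inter_subset (K : Set (E d)) (y : Fin (n + 1) → E d) (ψ : Fin (n + 1) → ℝ)
    (k j : Fin (n + 1)) :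
    pcell K y ψ k ∩ pcell K y ψ j ⊆ {x | inner ℝ x (y k - y j) = ψ k - ψ j} := by
  rintro x ⟨⟨_, hk⟩, ⟨_, hj⟩⟩
  have h1 := hk j
  have h2 := hj k
  simp only [Set.mem_setOf_eq, inner_sub_right]
  linarith

lemma volume_pcell_inter {K : Set (E d)} {y : Fin (n + 1) → E d} (hy : Function.Injective y)
    (ψ : Fin (n + 1) → ℝ) {k j : Fin (n + 1)} (hkj : k ≠ j) :
    volume (pcell K y ψ k ∩ pcell K y ψ j) = 0 :=
  measure_mono_null (pcell_inter_subset K y ψ k j)
    (volume_hyperplane _ (sub_ne_zero.2 (hy.ne hkj)) _)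

lemma unif_pcell_inter {K : Set (E d)} {y : Fin (n + 1) → E d} (hy : Function.Injective y)
    (ψ : Fin (n + 1) → ℝ) {k j : Fin (n + 1)} (hkj : k ≠ j) :
    unif K (pcell K y ψ k ∩ pcell K y ψ j) = 0 :=
  unif_ac K (volume_pcell_inter hy ψ hkj)

lemma aedisjoint_pcell {K : Set (E d)} {y : Fin (n + 1) → E d} (hy : Function.Injective y)
    (ψ : Fin (n + 1) → ℝ) : Pairwise (Function.onFun (AEDisjoint (unif K)) (pcell K y ψ)) :=
  fun _ _ hkj => unif_pcell_inter hy ψ hkj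

lemma unif_self {K : Set (E d)} (hK : IsCompact K) (hint : (interior K).Nonempty) :
    unif K K = 1 := by
  unfold unif
  rw [Measure.smul_apply, Measure.restrict_apply hK.measurableSet, Set.inter_self, smul_eq_mul]
  exact ENNReal.inv_mul_cancel (volume_pos_of_interior hint).ne' hK.measure_lt_top.ne

lemma sum_unif_pcell {K : Set (E d)} (hK : IsCompact K) (hint : (interior K).Nonempty)
    {y : Fin (n + 1) → E d} (hy : Function.Injective y) (ψ : Fin (n + 1) → ℝ) :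
    ∑ k, unif K (pcell K y ψ k) = 1 := by
  have h := measure_iUnion₀ (aedisjoint_pcell (K := K) hy ψ)
    (fun k => (measurableSet_pcell hK.isClosed y ψ k).nullMeasurableSet)
  rw [iUnion_pcell, tsum_fintype, unif_self hK hint] at h
  exact h.symm

lemma unif_pcell_ne_top {K : Set (E d)} (hK : IsCompact K) (hint : (interior K).Nonempty)
    (y : Fin (n + 1) → E d) (ψ : Fin (n + 1) → ℝ) (k : Fin (n + 1)) :
    unif K (pcell K y ψ k) ≠ ⊤ := by
  have := unif_isProbabilityMeasure hK hint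
  exact measure_ne_top _ _

lemma ofReal_cmass {K : Set (E d)} (hK : IsCompact K) (hint : (interior K).Nonempty)
    (y : Fin (n + 1) → E d) (ψ : Fin (n + 1) → ℝ) (k : Fin (n + 1)) :
    ENNReal.ofReal (cmass K y ψ k) = unif K (pcell K y ψ k) :=
  ENNReal.ofReal_toReal (unif_pcell_ne_top hK hint y ψ k)

lemma cmass_nonneg (K : Set (E d)) (y : Fin (n + 1) → E d) (ψ : Fin (n + 1) → ℝ)
    (k : Fin (n + 1)) : 0 ≤ cmass K y ψ k := ENNReal.toReal_nonneg

lemma sum_cmass {K : Set (E d)} (hK : IsCompact K) (hint : (interior K).Nonempty)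
    {y : Fin (n + 1) → E d} (hy : Function.Injective y) (ψ : Fin (n + 1) → ℝ) :
    ∑ k, cmass K y ψ k = 1 := by
  unfold cmass
  rw [← ENNReal.toReal_sum (fun k _ => unif_pcell_ne_top hK hint y ψ k),
    sum_unif_pcell hK hint hy ψ]
  simp

/-- The integral over `K` is the sum of the integrals over the cells. -/
lemma integral_eq_sum_pcell {K : Set (E d)} (hK : IsCompact K)
    {y : Fin (n + 1) → E d} (hy : Function.Injective y) (ψ : Fin (n + 1) → ℝ)
    {F : Type*} [NormedAddCommGroup F] [NormedSpace ℝ F] (f : E d → F)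
    (hf : Integrable f (unif K)) :
    ∫ x, f x ∂(unif K) = ∑ k, ∫ x in pcell K y ψ k, f x ∂(unif K) := by
  have h1 : ∫ x, f x ∂(unif K) = ∫ x in ⋃ k, pcell K y ψ k, f x ∂(unif K) := by
    rw [iUnion_pcell, Measure.restrict_eq_self_of_ae_mem (ae_mem_unif hK)]
  rw [h1, integral_iUnion_ae
    (fun k => (measurableSet_pcell hK.isClosed y ψ k).nullMeasurableSet)
    (aedisjoint_pcell hy ψ) hf.integrableOn, tsum_fintype]

/-- Midpoints of points of the `k`-th cells of two diagrams with the same sites lie in the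
`k`-th cell of the diagram with the averaged weights. -/
lemma pcell_midpoint {K : Set (E d)} (hconv : Convex ℝ K) {y : Fin (n + 1) → E d}
    {ψ ψ' : Fin (n + 1) → ℝ} {k : Fin (n + 1)} {x x' : E d} (hx : x ∈ pcell K y ψ k)
    (hx' : x' ∈ pcell K y ψ' k) :
    (1 / 2 : ℝ) • (x + x') ∈ pcell K y (fun j => (ψ j + ψ' j) / 2) k := by
  refine ⟨?_, fun j => ?_⟩
  · have := hconv hx.1 hx'.1 (by norm_num : (0 : ℝ) ≤ 1 / 2) (by norm_num : (0 : ℝ) ≤ 1 / 2)
      (by norm_num)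
    simpa [smul_add] using this
  · have h1 := hx.2 j
    have h2 := hx'.2 j
    simp only [real_inner_smul_left, inner_add_left]
    linarith

lemma ppot_ge (y : Fin (n + 1) → E d) (ψ : Fin (n + 1) → ℝ) (x : E d) (j : Fin (n + 1)) :
    inner ℝ x (y j) - ψ j ≤ ppot y ψ x :=
  Finset.le_sup' (fun k => inner ℝ x (y k) - ψ k) (Finset.mem_univ j)

lemma ppot_eq_pidx (y : Fin (n + 1) → E d) (ψ : Fin (n + 1) → ℝ) (x : E d) :
    ppot y ψ x = inner ℝ x (y (pidx y ψ x)) - ψ (pidx y ψ x) :=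
  le_antisymm (Finset.sup'_le _ _ (fun j _ => pidx_spec y ψ x j)) (ppot_ge y ψ x _)

lemma ppot_eq_of_mem {K : Set (E d)} {y : Fin (n + 1) → E d} {ψ : Fin (n + 1) → ℝ}
    {k : Fin (n + 1)} {x : E d} (hx : x ∈ pcell K y ψ k) :
    ppot y ψ x = inner ℝ x (y k) - ψ k :=
  le_antisymm (Finset.sup'_le _ _ (fun j _ => hx.2 j)) (ppot_ge y ψ x k)

/-- `pmap y ψ x` is a subgradient of `ppot y ψ` at `x` (for every `x`). -/
lemma ppot_subgradient (y : Fin (n + 1) → E d) (ψ : Fin (n + 1) → ℝ) (x z : E d) :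
    ppot y ψ x + inner ℝ (pmap y ψ x) (z - x) ≤ ppot y ψ z := by
  rw [ppot_eq_pidx y ψ x]
  have h := ppot_ge y ψ z (pidx y ψ x)
  unfold pmap
  rw [inner_sub_right, real_inner_comm z, real_inner_comm x]
  linarith

lemma convexOn_ppot (y : Fin (n + 1) → E d) (ψ : Fin (n + 1) → ℝ) :
    ConvexOn ℝ Set.univ (ppot y ψ) := by
  refine ⟨convex_univ, fun x _ z _ a b ha hb hab => ?_⟩
  rw [ppot_eq_pidx y ψ (a • x + b • z)]
  set k := pidx y ψ (a • x + b • z)
  have h1 := ppot_ge y ψ x k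
  have h2 := ppot_ge y ψ z k
  simp only [inner_add_left, real_inner_smul_left, smul_eq_mul]
  have h3 : ψ k = a * ψ k + b * ψ k := by rw [← add_mul, hab, one_mul]
  nlinarith

lemma norm_pmap_le {y : Fin (n + 1) → E d} {R : ℝ} (hR : ∀ k, ‖y k‖ ≤ R) (ψ : Fin (n + 1) → ℝ)
    (x : E d) : ‖pmap y ψ x‖ ≤ R := hR _

lemma ppot_lipschitz {y : Fin (n + 1) → E d} {R : ℝ} (hR : ∀ k, ‖y k‖ ≤ R)
    (ψ : Fin (n + 1) → ℝ) : ∀ x z, |ppot y ψ x - ppot y ψ z| ≤ R * ‖x - z‖ := by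
  have key : ∀ x z, ppot y ψ x - ppot y ψ z ≤ R * ‖x - z‖ := by
    intro x z
    have h := ppot_subgradient y ψ x z
    have h2 : |inner ℝ (pmap y ψ x) (z - x)| ≤ ‖pmap y ψ x‖ * ‖z - x‖ :=
      abs_real_inner_le_norm _ _
    have h3 : ‖pmap y ψ x‖ ≤ R := norm_pmap_le hR ψ x
    have h4 : ‖z - x‖ = ‖x - z‖ := norm_sub_rev _ _
    have h5 := (abs_le.mp h2).1
    have h6 : ‖pmap y ψ x‖ * ‖z - x‖ ≤ R * ‖z - x‖ :=
      mul_le_mul_of_nonneg_right h3 (norm_nonneg _)
    rw [h4] at h5 h6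
    linarith
  intro x z
  rw [abs_le]
  constructor
  · have := key z x
    rw [norm_sub_rev] at this
    linarith
  · exact key x z

lemma measurableSet_pactive (y : Fin (n + 1) → E d) (ψ : Fin (n + 1) → ℝ) (k : Fin (n + 1)) :
    MeasurableSet {x : E d | k ∈ pactive y ψ x} := by
  have : {x : E d | k ∈ pactive y ψ x} =
      ⋂ j, {x | inner ℝ x (y j) - ψ j ≤ inner ℝ x (y k) - ψ k} := by
    ext x
    simp [mem_pactive_iff]
  rw [this]
  exact MeasurableSet.iInter fun j => (isClosed_le (by fun_prop) (by fun_prop)).measurableSet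

lemma measurable_pidx (y : Fin (n + 1) → E d) (ψ : Fin (n + 1) → ℝ) :
    Measurable (pidx (d := d) y ψ) := by
  apply measurable_to_countable'
  intro k
  have : pidx y ψ ⁻¹' {k} =
      {x | k ∈ pactive y ψ x} ∩ ⋂ b, {x | b ∈ pactive y ψ x → k ≤ b} := by
    ext x
    simp only [Set.mem_preimage, Set.mem_singleton_iff, Set.mem_inter_iff, Set.mem_setOf_eq,
      Set.mem_iInter]
    unfold pidx
    rw [Finset.min'_eq_iff]
  rw [this]
  refine (measurableSet_pactive y ψ k).inter (MeasurableSet.iInter fun b => ?_)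
  by_cases hkb : k ≤ b
  · simp [hkb]
  · have : {x : E d | b ∈ pactive y ψ x → k ≤ b} = {x | b ∈ pactive y ψ x}ᶜ := by
      ext x
      simp [hkb]
    rw [this]
    exact (measurableSet_pactive y ψ b).compl

lemma measurable_pmap (y : Fin (n + 1) → E d) (ψ : Fin (n + 1) → ℝ) :
    Measurable (pmap (d := d) y ψ) :=
  (measurable_of_countable y).comp (measurable_pidx y ψ)

lemma pmap_eq_of_mem_of_forall {K : Set (E d)} {y : Fin (n + 1) → E d} {ψ : Fin (n + 1) → ℝ}
    {k : Fin (n + 1)} {x : E d} (hx : x ∈ pcell K y ψ k)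
    (h : ∀ j, j ≠ k → x ∉ pcell K y ψ j) : pmap y ψ x = y k := by
  have hmem := mem_pcell_pidx hx.1 y ψ
  by_contra hne
  have hk : pidx y ψ x ≠ k := fun h' => hne (by unfold pmap; rw [h'])
  exact h _ hk hmem

/-- Almost everywhere, `pmap y ψ` equals `y k` on the `k`-th cell. -/
lemma ae_pmap_eq {y : Fin (n + 1) → E d} (hy : Function.Injective y) (K : Set (E d))
    (ψ : Fin (n + 1) → ℝ) :
    ∀ᵐ x ∂(unif K), ∀ k, x ∈ pcell K y ψ k → pmap y ψ x = y k := by
  have hnull : ∀ k j, k ≠ j → ∀ᵐ x ∂(unif K), x ∉ pcell K y ψ k ∩ pcell K y ψ j := by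
    intro k j hkj
    rw [ae_iff]
    simpa using unif_pcell_inter (K := K) hy ψ hkj
  have hall : ∀ᵐ x ∂(unif K), ∀ k j, k ≠ j → x ∉ pcell K y ψ k ∩ pcell K y ψ j := by
    rw [ae_all_iff]
    intro k
    rw [ae_all_iff]
    intro j
    by_cases hkj : k = j
    · exact Filter.Eventually.of_forall fun x h => absurd hkj h
    · filter_upwards [hnull k j hkj] with x hx _ using hx
  filter_upwards [hall] with x hx k hxk
  exact pmap_eq_of_mem_of_forall hxk (fun j hj hxj => hx k j (Ne.symm hj) ⟨hxk, hxj⟩)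

/-- The integral of a constant over a cell. -/
lemma setIntegral_const_pcell {K : Set (E d)} (hK : IsCompact K) (hint : (interior K).Nonempty)
    (y : Fin (n + 1) → E d) (ψ : Fin (n + 1) → ℝ) (k : Fin (n + 1)) (c : ℝ) :
    ∫ _ in pcell K y ψ k, c ∂(unif K) = cmass K y ψ k * c := by
  rw [setIntegral_const, smul_eq_mul]
  rfl

end Vale.Agent.Lib.P074
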