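import Vale.Agent.Lib.P074.helper89.PL
import Vale.Agent.Lib.P074.helper27.Tilt
import Vale.Agent.Lib.P074.helper14.Absorb
import Vale.Agent.Lib.P074.helper43.Centroid
import Vale.Agent.Lib.P074.helper3.Disc
import Vale.Agent.Lib.P074.helper13.Opt
import Vale.Agent.Lib.P074.helper77.Approx
import Vale.Agent.Lib.P074.helper79.Real3
import Vale.Agent.Lib.P074.helper19.Adm3
import Vale.Agent.Lib.P074.LB.Quarter

/-!
# P074: the exponent `1/3` is admissible — assembly of the pieces
-/

namespace Vale.Agent.Lib.P074

/-- The centroid inequality (Prékopa–Leindler + tilting + absorption). -/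
theorem centroid_statement (d : ℕ) : CentroidStatement d :=
  centroid_of_tilt d (tilt_of_pl d (pl_statement d)) (absorb_statement d)

/-- Assembly: existence of power diagrams, Lipschitz dependence of the weights on the sites and
the interpolation inequality give admissibility of the exponent `1/3`. -/
theorem admissible_third_of_pieces (d : ℕ) (hd : 1 ≤ d) (hex : ExStatement d)
    (hlip : LipStatement d) (hgn : GNStatement d) : Admissible d (1 / 3) :=
  admissible_third_of_real3 d
    (real3_of_pieces d (disc_of_lip_gn d hlip hgn) hex (opt_statement d) (approx_statement d hd)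
      (real_statement d))

end Vale.Agent.Lib.P074
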