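import Vale.Agent.Lib.P074.LB.Statements

/-!
# P074: the exponent `1/3` is admissible — definitions and interface statements

Power (Laguerre) diagrams of a convex body `K` with sites `y k` and weights `ψ k`, and the
intermediate statements of the proof that `‖T_μ - T_ν‖_{L²(ρ)} ≤ C W₂(μ, ν)^{1/3}`.

Plan of the proof (all statements below are `Prop`s; each is proved in its own file):
* `PLStatement`      : Prékopa–Leindler inequality (parameter `1/2`).
* `TiltStatement`    : Gaussian-weighted, exponentially tilted PL for a triple `A, B, C` with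
                       `(A + B)/2 ⊆ C`.
* `AbsorbStatement`  : the finite-sum algebra turning two tilt inequalities into the centroid
                       inequality.
* `CentroidStatement`: for two power diagrams with the same sites, the first moments of the
                       cells are Lipschitz in the cell masses.
* `ExStatement`      : existence of a power diagram with prescribed cell masses.
* `ContStatement`    : continuity of the weights in the masses.
* `LipStatement`     : the weights are Lipschitz in the sites (mixed second difference).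
* `GNStatement`      : interpolation `∫|T-S|² ≤ C (∫ (φ-ψ-c)²)^{1/3}` for convex potentials.
* `DiscStatement`    : the `1/3`-stability estimate for power-diagram maps.
* `OptStatement`     : power-diagram maps are optimal.
* `ApproxStatement`  : discretization of a coupling.
* `Real3Statement`   : the real-valued `1/3`-stability estimate against an arbitrary coupling.
-/

namespace Vale.Agent.Lib.P074

open MeasureTheory ENNReal

variable {d : ℕ}

/-- The power (Laguerre) cell of the site `k`: the points `x` of `K` at which the affine function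
`x ↦ ⟨x, y k⟩ - ψ k` is maximal among the affine functions `x ↦ ⟨x, y j⟩ - ψ j`. -/
def pcell (K : Set (E d)) {n : ℕ} (y : Fin (n + 1) → E d) (ψ : Fin (n + 1) → ℝ)
    (k : Fin (n + 1)) : Set (E d) :=
  {x | x ∈ K ∧ ∀ j, inner ℝ x (y j) - ψ j ≤ inner ℝ x (y k) - ψ k}

/-- The mass of the `k`-th power cell for the uniform probability measure on `K`. -/
noncomputable def cmass (K : Set (E d)) {n : ℕ} (y : Fin (n + 1) → E d) (ψ : Fin (n + 1) → ℝ)
    (k : Fin (n + 1)) : ℝ :=
  ((unif K) (pcell K y ψ k)).toReal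

/-- The first moment of the `k`-th power cell for the uniform probability measure on `K`. -/
noncomputable def cmom (K : Set (E d)) {n : ℕ} (y : Fin (n + 1) → E d) (ψ : Fin (n + 1) → ℝ)
    (k : Fin (n + 1)) : E d :=
  ∫ x in pcell K y ψ k, x ∂(unif K)

/-- The convex piecewise affine potential `x ↦ max_k (⟨x, y k⟩ - ψ k)`. -/
noncomputable def ppot {n : ℕ} (y : Fin (n + 1) → E d) (ψ : Fin (n + 1) → ℝ) (x : E d) : ℝ :=
  Finset.univ.sup' Finset.univ_nonempty (fun k => inner ℝ x (y k) - ψ k)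

/-- The set of indices at which the maximum defining `ppot y ψ x` is attained. -/
noncomputable def pactive {n : ℕ} (y : Fin (n + 1) → E d) (ψ : Fin (n + 1) → ℝ) (x : E d) :
    Finset (Fin (n + 1)) :=
  open Classical in
  Finset.univ.filter (fun k => ∀ j, inner ℝ x (y j) - ψ j ≤ inner ℝ x (y k) - ψ k)

lemma pactive_nonempty {n : ℕ} (y : Fin (n + 1) → E d) (ψ : Fin (n + 1) → ℝ) (x : E d) :
    (pactive y ψ x).Nonempty := by
  classical
  obtain ⟨k, -, hk⟩ := Finset.exists_max_image Finset.univ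
    (fun k => inner ℝ x (y k) - ψ k) Finset.univ_nonempty
  exact ⟨k, by simpa [pactive] using fun j => hk j (Finset.mem_univ j)⟩

/-- The least index at which the maximum defining `ppot y ψ x` is attained. -/
noncomputable def pidx {n : ℕ} (y : Fin (n + 1) → E d) (ψ : Fin (n + 1) → ℝ) (x : E d) :
    Fin (n + 1) :=
  (pactive y ψ x).min' (pactive_nonempty y ψ x)

/-- The power-diagram map: `x` is sent to the site `y k`, `k` the least index whose affine
function is maximal at `x` (so `x ∈ pcell K y ψ k` whenever `x ∈ K`). -/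
noncomputable def pmap {n : ℕ} (y : Fin (n + 1) → E d) (ψ : Fin (n + 1) → ℝ) (x : E d) : E d :=
  y (pidx y ψ x)

/-- The Gaussian weight `x ↦ exp (-(lam/2) ‖x‖²)`. -/
noncomputable def gw (lam : ℝ) (x : E d) : ℝ := Real.exp (-(lam / 2) * ‖x‖ ^ 2)

/-- Prékopa–Leindler inequality with parameter `1/2` on `E n`. -/
def PLStatement (n : ℕ) : Prop :=
  ∀ f g h : E n → ℝ≥0∞, Measurable f → Measurable g → Measurable h →
    (∀ x y, f x * g y ≤ h ((1 / 2 : ℝ) • (x + y)) ^ 2) →
      (∫⁻ x, f x) * (∫⁻ x, g x) ≤ (∫⁻ x, h x) ^ 2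

/-- Gaussian-weighted, exponentially tilted Prékopa–Leindler inequality for a triple of sets
`A, B, C ⊆ K` with `(A + B)/2 ⊆ C` and an `L`-Lipschitz test function `w`. -/
def TiltStatement (d : ℕ) : Prop :=
  ∀ (lam L : ℝ), 0 < lam → 0 < L → ∀ (K A B C : Set (E d)), IsCompact K →
    MeasurableSet A → MeasurableSet B → MeasurableSet C → A ⊆ K → B ⊆ K → C ⊆ K →
    (∀ x ∈ A, ∀ y ∈ B, (1 / 2 : ℝ) • (x + y) ∈ C) →
    ∀ w : E d → ℝ, Continuous w → (∀ x ∈ K, ∀ y ∈ K, |w x - w y| ≤ L * ‖x - y‖) →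
      0 < ∫ x in A, gw lam x → 0 < ∫ x in B, gw lam x →
      (∫ x in A, gw lam x) * (∫ x in B, gw lam x) *
          Real.exp (lam * ((∫ x in A, gw lam x * w x) / (∫ x in A, gw lam x) -
            (∫ x in B, gw lam x * w x) / (∫ x in B, gw lam x)) ^ 2 / (4 * L ^ 2))
        ≤ (∫ x in C, gw lam x) ^ 2

/-- The finite-sum algebra: two families of tilt inequalities give the centroid inequality.
Here `v, v'` are the volumes, `a, a'` the Gaussian masses and `P, P'` the first moments of two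
families of cells; `G` is the total Gaussian mass. -/
def AbsorbStatement (d : ℕ) : Prop :=
  ∀ (ι : Type) [Fintype ι] (D q c₁ c₂ G : ℝ) (a a' v v' : ι → ℝ) (P P' : ι → E d),
    0 < D → 1 ≤ q → q ≤ 1.0102 → 6 ≤ c₁ → 1 ≤ 430 * c₂ * D ^ 2 →
    (∀ i, 0 < v i) → (∀ i, |v' i - v i| ≤ v i / 2) →
    (∀ i, v i ≤ q * a i ∧ a i ≤ v i) → (∀ i, v' i ≤ q * a' i ∧ a' i ≤ v' i) →
    (∀ i, ‖P i‖ ≤ D * v i) → (∀ i, ‖P' i‖ ≤ D * v' i) →
    ∑ i, a i = G → ∑ i, a' i = G →
    c₁ * ∑ i, Real.sqrt (a i * a' i) * (v i / a i - v' i / a' i) ^ 2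
      ≤ G - ∑ i, Real.sqrt (a i * a' i) →
    c₂ * ∑ i, Real.sqrt (a i * a' i) * ‖(a i)⁻¹ • P i - (a' i)⁻¹ • P' i‖ ^ 2
      ≤ G - ∑ i, Real.sqrt (a i * a' i) →
    ∑ i, ‖P' i - P i‖ ^ 2 / v i ≤ 2500 * D ^ 2 * ∑ i, (v' i - v i) ^ 2 / v i

/-- For two power diagrams with the same sites, the first moments of the cells are Lipschitz
functions of the cell masses (in the natural weighted norms). -/
def CentroidStatement (d : ℕ) : Prop :=
  ∀ K : Set (E d), IsCompact K → Convex ℝ K → (interior K).Nonempty →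
    ∃ C : ℝ, 0 ≤ C ∧ ∀ (n : ℕ) (y : Fin (n + 1) → E d) (ψ ψ' : Fin (n + 1) → ℝ),
      Function.Injective y → (∀ k, 0 < cmass K y ψ k) →
      (∀ k, |cmass K y ψ' k - cmass K y ψ k| ≤ cmass K y ψ k / 2) →
      ∑ k, ‖cmom K y ψ' k - cmom K y ψ k‖ ^ 2 / cmass K y ψ k
        ≤ C * ∑ k, (cmass K y ψ' k - cmass K y ψ k) ^ 2 / cmass K y ψ k

/-- Existence of a power diagram with prescribed (positive) cell masses. -/
def ExStatement (d : ℕ) : Prop :=
  ∀ K : Set (E d), IsCompact K → Convex ℝ K → (interior K).Nonempty →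
    ∀ (n : ℕ) (y : Fin (n + 1) → E d), Function.Injective y →
      ∀ m : Fin (n + 1) → ℝ, (∀ k, 0 < m k) → ∑ k, m k = 1 →
        ∃ ψ : Fin (n + 1) → ℝ, ∀ k, cmass K y ψ k = m k

/-- Continuity of the weights (modulo additive constants) as a function of the cell masses. -/
def ContStatement (d : ℕ) : Prop :=
  ∀ K : Set (E d), IsCompact K → Convex ℝ K → (interior K).Nonempty →
    ∀ (n : ℕ) (y : Fin (n + 1) → E d), Function.Injective y →
      ∀ ψ : Fin (n + 1) → ℝ, (∀ k, 0 < cmass K y ψ k) → ∀ δ : ℝ, 0 < δ →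
        ∃ θ : ℝ, 0 < θ ∧ ∀ ψ' : Fin (n + 1) → ℝ,
          ∑ k, |cmass K y ψ' k - cmass K y ψ k| < θ → ∃ c : ℝ, ∀ k, |ψ' k - ψ k - c| < δ

/-- The weights of a power diagram with fixed cell masses are Lipschitz in the sites. -/
def LipStatement (d : ℕ) : Prop :=
  ∀ K : Set (E d), IsCompact K → Convex ℝ K → (interior K).Nonempty →
    ∃ C : ℝ, 0 ≤ C ∧ ∀ (n : ℕ) (y y' : Fin (n + 1) → E d) (ψ ψ' : Fin (n + 1) → ℝ),
      Function.Injective y → Function.Injective y' → (∀ k, 0 < cmass K y ψ k) →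
      (∀ k, cmass K y' ψ' k = cmass K y ψ k) →
      ∃ c : ℝ, ∑ k, cmass K y ψ k * (ψ' k - ψ k - c) ^ 2
        ≤ C * ∑ k, cmass K y ψ k * ‖y' k - y k‖ ^ 2

/-- Interpolation inequality for a.e. subgradient selections of convex Lipschitz potentials. -/
def GNStatement (d : ℕ) : Prop :=
  ∀ K : Set (E d), IsCompact K → Convex ℝ K → (interior K).Nonempty → ∀ R : ℝ, 0 ≤ R →
    ∃ C : ℝ, 0 ≤ C ∧ ∀ (φ ψ : E d → ℝ) (T S : E d → E d),
      ConvexOn ℝ Set.univ φ → ConvexOn ℝ Set.univ ψ →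
      (∀ x y, |φ x - φ y| ≤ R * ‖x - y‖) → (∀ x y, |ψ x - ψ y| ≤ R * ‖x - y‖) →
      Measurable T → Measurable S →
      (∀ᵐ x ∂(unif K), ∀ z, φ x + inner ℝ (T x) (z - x) ≤ φ z) →
      (∀ᵐ x ∂(unif K), ∀ z, ψ x + inner ℝ (S x) (z - x) ≤ ψ z) →
      ∀ c : ℝ, ∫ x, ‖T x - S x‖ ^ 2 ∂(unif K)
        ≤ C * (∫ x, (φ x - ψ x - c) ^ 2 ∂(unif K)) ^ (1 / 3 : ℝ)

/-- The `1/3`-stability estimate for power-diagram maps with equal cell masses. -/
def DiscStatement (d : ℕ) : Prop :=
  ∀ K : Set (E d), IsCompact K → Convex ℝ K → (interior K).Nonempty → ∀ R : ℝ, 0 ≤ R →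
    ∃ C : ℝ, 0 ≤ C ∧ ∀ (n : ℕ) (y y' : Fin (n + 1) → E d) (ψ ψ' : Fin (n + 1) → ℝ),
      Function.Injective y → Function.Injective y' → (∀ k, ‖y k‖ ≤ R) → (∀ k, ‖y' k‖ ≤ R) →
      (∀ k, 0 < cmass K y ψ k) → (∀ k, cmass K y' ψ' k = cmass K y ψ k) →
      ∫ x, ‖pmap y ψ x - pmap y' ψ' x‖ ^ 2 ∂(unif K)
        ≤ C * (∑ k, cmass K y ψ k * ‖y' k - y k‖ ^ 2) ^ (1 / 3 : ℝ)

/-- Power-diagram maps are optimal transport maps onto the corresponding discrete measures. -/
def OptStatement (d : ℕ) : Prop :=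
  ∀ K : Set (E d), IsCompact K → Convex ℝ K → (interior K).Nonempty →
    ∀ (n : ℕ) (y : Fin (n + 1) → E d) (ψ : Fin (n + 1) → ℝ), Function.Injective y →
      IsOptMap (unif K) (∑ k, ENNReal.ofReal (cmass K y ψ k) • Measure.dirac (y k)) (pmap y ψ)

/-- Discretization of a coupling: the two marginals are approximated by discrete measures with
a common index set, common masses and injective site families, at controlled transport cost. -/
def ApproxStatement (d : ℕ) : Prop :=
  ∀ Y : Set (E d), IsCompact Y → Y.Nonempty →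
    ∀ μ ν : Measure (E d), IsProbabilityMeasure μ → IsProbabilityMeasure ν → μ Y = 1 → ν Y = 1 →
      ∀ π : Measure (E d × E d), π.map Prod.fst = μ → π.map Prod.snd = ν → ∀ ε : ℝ, 0 < ε →
        ∃ (n : ℕ) (m : Fin (n + 1) → ℝ) (y y' : Fin (n + 1) → E d),
          (∀ k, 0 < m k) ∧ ∑ k, m k = 1 ∧ Function.Injective y ∧ Function.Injective y' ∧
          (∀ k, ∃ z ∈ Y, ‖y k - z‖ ≤ ε) ∧ (∀ k, ∃ z ∈ Y, ‖y' k - z‖ ≤ ε) ∧
          (∃ π₁ : Measure (E d × E d), π₁.map Prod.fst = μ ∧
            π₁.map Prod.snd = ∑ k, ENNReal.ofReal (m k) • Measure.dirac (y k) ∧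
            ∫ p, ‖p.1 - p.2‖ ∂π₁ ≤ ε) ∧
          (∃ π₂ : Measure (E d × E d), π₂.map Prod.fst = ν ∧
            π₂.map Prod.snd = ∑ k, ENNReal.ofReal (m k) • Measure.dirac (y' k) ∧
            ∫ p, ‖p.1 - p.2‖ ∂π₂ ≤ ε) ∧
          ∑ k, m k * ‖y' k - y k‖ ^ 2 ≤ ∫ p, ‖p.1 - p.2‖ ^ 2 ∂π + ε

/-- The real-valued `1/3`-stability estimate against an arbitrary coupling of the targets. -/
def Real3Statement (d : ℕ) : Prop :=
  ∀ K : Set (E d), IsCompact K → Convex ℝ K → (interior K).Nonempty →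
    ∀ Y : Set (E d), IsCompact Y → Y.Nonempty →
      ∃ C : ℝ, 0 ≤ C ∧ ∀ μ ν : Measure (E d), IsProbabilityMeasure μ → IsProbabilityMeasure ν →
        μ Y = 1 → ν Y = 1 →
          ∀ T S : E d → E d, IsOptMap (unif K) μ T → IsOptMap (unif K) ν S →
            ∀ π : Measure (E d × E d), π.map Prod.fst = μ → π.map Prod.snd = ν →
              ∫ x, ‖T x - S x‖ ^ 2 ∂(unif K) ≤ C * (∫ p, ‖p.1 - p.2‖ ^ 2 ∂π) ^ (1 / 3 : ℝ)

end Vale.Agent.Lib.P074
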