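import Vale.Agent.Lib.P074.helper81.AdmOfReal
import Vale.Agent.Lib.P074.Main

/-!
# P074: admissibility is monotone in the exponent, and the value of the supremum
-/

namespace Vale.Agent.Lib.P074

open MeasureTheory ENNReal

variable {d : ℕ}

/-- `W_2(μ, ν) ≤ 2R` for probability measures concentrated on a compact subset of the closed
ball of radius `R` (product coupling). -/
lemma W2_le_of_subset_closedBall {μ ν : Measure (E d)} [IsProbabilityMeasure μ]
    [IsProbabilityMeasure ν] {Y : Set (E d)} (hY : IsCompact Y) (hμY : μ Y = 1) (hνY : ν Y = 1)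
    {R : ℝ} (hR0 : 0 ≤ R) (hR : Y ⊆ Metric.closedBall 0 R) :
    W2 μ ν ≤ ENNReal.ofReal (2 * R) := by
  have h1 : (μ.prod ν).map Prod.fst = μ := by
    rw [Measure.map_fst_prod, measure_univ, one_smul]
  have h2 : (μ.prod ν).map Prod.snd = ν := by
    rw [Measure.map_snd_prod, measure_univ, one_smul]
  obtain ⟨hπ, hae⟩ := coupling_facts' hY hμY hνY hR h1 h2
  unfold W2
  have hle : (⨅ π : Measure (E d × E d), ⨅ _ : π.map Prod.fst = μ ∧ π.map Prod.snd = ν,
      ∫⁻ p, ENNReal.ofReal (‖p.1 - p.2‖ ^ 2) ∂π) ≤ ENNReal.ofReal ((2 * R) ^ 2) := by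
    refine (iInf₂_le (μ.prod ν) ⟨h1, h2⟩).trans ?_
    calc ∫⁻ p, ENNReal.ofReal (‖p.1 - p.2‖ ^ 2) ∂(μ.prod ν)
        ≤ ∫⁻ _p, ENNReal.ofReal ((2 * R) ^ 2) ∂(μ.prod ν) := by
          refine lintegral_mono_ae ?_
          filter_upwards [hae] with p hp
          exact ENNReal.ofReal_le_ofReal (pow_le_pow_left₀ (norm_nonneg _) hp 2)
      _ = ENNReal.ofReal ((2 * R) ^ 2) := by
          rw [lintegral_const, measure_univ, mul_one]
  refine (ENNReal.rpow_le_rpow hle (by norm_num)).trans_eq ?_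
  rw [ENNReal.ofReal_rpow_of_nonneg (by positivity) (by norm_num)]
  congr 1
  rw [← Real.sqrt_eq_rpow, Real.sqrt_sq (by positivity)]

/-- Every positive exponent below an admissible one is admissible. -/
theorem admissible_of_le (d : ℕ) {α β : ℝ} (hα : 0 < α) (hαβ : α ≤ β) (h : Admissible d β) :
    Admissible d α := by
  intro K hK hconv hint Y hY hYne
  obtain ⟨C, hC⟩ := h K hK hconv hint Y hY hYne
  obtain ⟨R, hR⟩ := hY.isBounded.subset_closedBall (0 : E d)
  have hR0 : 0 ≤ R := by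
    obtain ⟨z, hz⟩ := hYne
    have := hR hz
    rw [Metric.mem_closedBall, dist_zero_right] at this
    exact (norm_nonneg z).trans this
  have hM : (0 : ℝ) < 2 * R + 1 := by linarith
  refine ⟨max C 0 * (2 * R + 1) ^ (β - α), fun μ ν hμ hν hμY hνY T S hT hS => ?_⟩
  have hW : W2 μ ν ≤ ENNReal.ofReal (2 * R + 1) :=
    (W2_le_of_subset_closedBall hY hμY hνY hR0 hR).trans
      (ENNReal.ofReal_le_ofReal (by linarith))
  refine (hC μ ν hμ hν hμY hνY T S hT hS).trans ?_
  have hβ : 0 < β := lt_of_lt_of_le hα hαβ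
  by_cases hW0 : W2 μ ν = 0
  · rw [hW0, ENNReal.zero_rpow_of_pos hβ, mul_zero]
    exact zero_le
  · have hWtop : W2 μ ν ≠ ⊤ := ne_top_of_le_ne_top ENNReal.ofReal_ne_top hW
    have e1 : W2 μ ν ^ β = W2 μ ν ^ α * W2 μ ν ^ (β - α) := by
      rw [← ENNReal.rpow_add _ _ hW0 hWtop]
      congr 1; ring
    have e2 : W2 μ ν ^ (β - α) ≤ ENNReal.ofReal ((2 * R + 1) ^ (β - α)) := by
      rw [← ENNReal.ofReal_rpow_of_pos hM]
      exact ENNReal.rpow_le_rpow hW (by linarith)
    have e3 : ENNReal.ofReal (max C 0 * (2 * R + 1) ^ (β - α))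
        = ENNReal.ofReal C * ENNReal.ofReal ((2 * R + 1) ^ (β - α)) := by
      rw [ENNReal.ofReal_mul (le_max_right _ _)]
      congr 1
      rcases le_total C 0 with hc | hc
      · rw [max_eq_right hc, ENNReal.ofReal_of_nonpos hc, ENNReal.ofReal_zero]
      · rw [max_eq_left hc]
    rw [e1, e3]
    calc ENNReal.ofReal C * (W2 μ ν ^ α * W2 μ ν ^ (β - α))
        ≤ ENNReal.ofReal C * (W2 μ ν ^ α * ENNReal.ofReal ((2 * R + 1) ^ (β - α))) := by gcongr
      _ = ENNReal.ofReal C * ENNReal.ofReal ((2 * R + 1) ^ (β - α)) * W2 μ ν ^ α := by ring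

/-- In dimension `d ≥ 2`, once `1/3` is admissible, a positive exponent is admissible iff it is
at most `1/3`. -/
theorem admissible_iff_of_third (d : ℕ) (hd : 2 ≤ d) (h : Admissible d (1 / 3)) (α : ℝ)
    (hα : 0 < α) : Admissible d α ↔ α ≤ 1 / 3 := by
  constructor
  · intro hA
    by_contra hlt
    exact not_admissible d hd α (not_le.1 hlt) hA
  · intro hle
    exact admissible_of_le d hα hle h

/-- In dimension `d ≥ 2`, once `1/3` is admissible, the supremum of the admissible exponents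
is `1/3`. -/
theorem sSup_admissible_eq_of_third (d : ℕ) (hd : 2 ≤ d) (h : Admissible d (1 / 3)) :
    sSup {α : ℝ | 0 < α ∧ α ≤ 1 ∧ Admissible d α} = 1 / 3 := by
  refine le_antisymm (sSup_admissible_le d hd) ?_
  exact le_csSup ⟨1, fun α hα => hα.2.1⟩ ⟨by norm_num, by norm_num, h⟩

end Vale.Agent.Lib.P074
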