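import Vale.Agent.Lib.P074.Third.Chain
import Vale.Agent.Lib.P074.Third.Mono
import Vale.Agent.Lib.P074.helper94.Exist
import Vale.Agent.Lib.P074.helper55.Cont
import Vale.Agent.Lib.P074.helper40.GN
import Vale.Agent.Lib.P074.helper73.Lip

/-!
# P074: the exponent `1/3` is admissible, and it is the largest admissible exponent

Final chain: Prékopa–Leindler ⟹ tilted inequality ⟹ centroid inequality for power diagrams
⟹ (with existence and continuity of the weights) the weights are Lipschitz in the sites
⟹ (with the interpolation inequality) the `1/3`-estimate for power-diagram maps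
⟹ (discretization and the `1/4`-estimate) the `1/3`-estimate for all optimal maps.
-/

namespace Vale.Agent.Lib.P074

/-- The exponent `1/3` is admissible in every dimension `d ≥ 1`. -/
theorem admissible_third (d : ℕ) (hd : 1 ≤ d) : Admissible d (1 / 3) :=
  admissible_third_of_pieces d hd (ex_statement d)
    (lip_of_centroid d (centroid_statement d) (ex_statement d) (cont_statement d))
    (gn_statement d)

/-- In dimension `d ≥ 2`, a positive exponent is admissible iff it is at most `1/3`. -/
theorem admissible_iff (d : ℕ) (hd : 2 ≤ d) (α : ℝ) (hα : 0 < α) :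
    Admissible d α ↔ α ≤ 1 / 3 :=
  admissible_iff_of_third d hd (admissible_third d (by omega)) α hα

/-- In dimension `d ≥ 2`, the supremum of the admissible exponents is `1/3`. -/
theorem sSup_admissible_eq (d : ℕ) (hd : 2 ≤ d) :
    sSup {α : ℝ | 0 < α ∧ α ≤ 1 ∧ Admissible d α} = 1 / 3 :=
  sSup_admissible_eq_of_third d hd (admissible_third d (by omega))

end Vale.Agent.Lib.P074
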